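import Mathlib

/-!
# A rate obstruction for ultraflat real Littlewood polynomials

For a polynomial `P = ∑_{k<N} ε_k z^k` with `ε_k = ±1` and its reversal `R`, one has
`|P R| = |P|^2` on the unit circle, the coefficient of `X^(N-1)` in `P R` is `N`, and
`P R ≡ (1 + X + ... + X^(N-1))^2 = ∑ X^(2k)` modulo `2`.  By Parseval's identity the mean of
the square of `|P|^2 - N` over the circle is therefore at least `N - 1`.
-/

namespace Vale.Agent.H48.Littlewood

open Polynomial Finset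

/-- the polynomial `∑_{k<N} ε_k X^k` over the integers -/
noncomputable def polyP (N : ℕ) (ε : ℕ → ℤ) : ℤ[X] := ∑ k ∈ range N, C (ε k) * X ^ k

/-- its reversal `∑_{k<N} ε_k X^(N-1-k)` -/
noncomputable def polyR (N : ℕ) (ε : ℕ → ℤ) : ℤ[X] := ∑ k ∈ range N, C (ε k) * X ^ (N - 1 - k)

/-- `P R - N X^(N-1)` -/
noncomputable def polyS (N : ℕ) (ε : ℕ → ℤ) : ℤ[X] :=
  polyP N ε * polyR N ε - C (N : ℤ) * X ^ (N - 1)

theorem cast_eps (ε : ℕ → ℤ) (hε : ∀ k, ε k = 1 ∨ ε k = -1) (k : ℕ) :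
    (Int.castRingHom (ZMod 2)) (ε k) = 1 := by
  rcases hε k with h | h
  · rw [h]; simp
  · rw [h]; simp

theorem map_polyP (N : ℕ) (ε : ℕ → ℤ) (hε : ∀ k, ε k = 1 ∨ ε k = -1) :
    (polyP N ε).map (Int.castRingHom (ZMod 2)) = ∑ k ∈ range N, X ^ k := by
  unfold polyP
  rw [Polynomial.map_sum]
  refine Finset.sum_congr rfl (fun k _ => ?_)
  rw [Polynomial.map_mul, Polynomial.map_C, Polynomial.map_pow, Polynomial.map_X, cast_eps ε hε k,
    map_one, one_mul]

theorem map_polyR (N : ℕ) (ε : ℕ → ℤ) (hε : ∀ k, ε k = 1 ∨ ε k = -1) :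
    (polyR N ε).map (Int.castRingHom (ZMod 2)) = ∑ k ∈ range N, X ^ k := by
  unfold polyR
  rw [Polynomial.map_sum, ← Finset.sum_range_reflect (fun k => (X : (ZMod 2)[X]) ^ k) N]
  refine Finset.sum_congr rfl (fun k _ => ?_)
  rw [Polynomial.map_mul, Polynomial.map_C, Polynomial.map_pow, Polynomial.map_X, cast_eps ε hε k,
    map_one, one_mul]

theorem sq_sum_char2 (N : ℕ) :
    (∑ k ∈ range N, (X : (ZMod 2)[X]) ^ k) * (∑ k ∈ range N, (X : (ZMod 2)[X]) ^ k)
      = ∑ k ∈ range N, (X : (ZMod 2)[X]) ^ (2 * k) := by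
  rw [← sq, sum_pow_char 2]
  refine Finset.sum_congr rfl (fun k _ => ?_)
  rw [← pow_mul, mul_comm]

theorem coeff_odd (N : ℕ) (ε : ℕ → ℤ) (hε : ∀ k, ε k = 1 ∨ ε k = -1) (k : ℕ) (hk : k < N) :
    (Int.castRingHom (ZMod 2)) ((polyP N ε * polyR N ε).coeff (2 * k)) = 1 := by
  rw [← Polynomial.coeff_map, Polynomial.map_mul, map_polyP _ _ hε, map_polyR _ _ hε,
    sq_sum_char2, Polynomial.finsetSum_coeff]
  simp only [Polynomial.coeff_X_pow]
  rw [Finset.sum_eq_single k]
  · simp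
  · intro j _ hj
    rw [if_neg]
    omega
  · intro h
    exact (h (mem_range.2 hk)).elim

theorem coeff_polyS_ne_zero (N : ℕ) (ε : ℕ → ℤ) (hε : ∀ k, ε k = 1 ∨ ε k = -1) (k : ℕ)
    (hk : k < N) (h2k : 2 * k ≠ N - 1) : (polyS N ε).coeff (2 * k) ≠ 0 := by
  have h1 : (polyS N ε).coeff (2 * k) = (polyP N ε * polyR N ε).coeff (2 * k) := by
    unfold polyS
    rw [Polynomial.coeff_sub, Polynomial.coeff_C_mul, Polynomial.coeff_X_pow, if_neg h2k,
      mul_zero, sub_zero]
  rw [h1]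
  intro h0
  have h := coeff_odd N ε hε k hk
  rw [h0, map_zero] at h
  exact zero_ne_one h

theorem eval_polyS (N : ℕ) (ε : ℕ → ℤ) (z : ℂ) :
    ((polyS N ε).map (Int.castRingHom ℂ)).eval z
      = (∑ k ∈ range N, (ε k : ℂ) * z ^ k) * (∑ k ∈ range N, (ε k : ℂ) * z ^ (N - 1 - k))
        - (N : ℂ) * z ^ (N - 1) := by
  simp only [polyS, polyP, polyR, Polynomial.eval_map, Polynomial.eval₂_sub, Polynomial.eval₂_mul,
    Polynomial.eval₂_finsetSum, Polynomial.eval₂_C, Polynomial.eval₂_pow, Polynomial.eval₂_X]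
  simp only [eq_intCast, Int.cast_natCast]

theorem rev_eq (N : ℕ) (ε : ℕ → ℤ) (z : ℂ) (hz : ‖z‖ = 1) :
    ∑ k ∈ range N, (ε k : ℂ) * z ^ (N - 1 - k)
      = z ^ (N - 1) * (starRingEnd ℂ) (∑ k ∈ range N, (ε k : ℂ) * z ^ k) := by
  rw [map_sum, Finset.mul_sum]
  refine Finset.sum_congr rfl (fun k hk => ?_)
  have hk' : N - 1 - k + k = N - 1 := by
    have := mem_range.1 hk
    omega
  have hzz : z * (starRingEnd ℂ) z = 1 := by
    rw [Complex.mul_conj, Complex.normSq_eq_norm_sq, hz]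
    simp
  rw [map_mul, map_pow, map_intCast]
  have h1 : z ^ (N - 1) = z ^ (N - 1 - k) * z ^ k := by
    rw [← pow_add, hk']
  rw [h1]
  calc (ε k : ℂ) * z ^ (N - 1 - k)
      = (ε k : ℂ) * z ^ (N - 1 - k) * (z * (starRingEnd ℂ) z) ^ k := by
        rw [hzz, one_pow, mul_one]
    _ = z ^ (N - 1 - k) * z ^ k * ((ε k : ℂ) * (starRingEnd ℂ) z ^ k) := by
        rw [mul_pow]; ring

theorem norm_eval_polyS (N : ℕ) (ε : ℕ → ℤ) (z : ℂ) (hz : ‖z‖ = 1) :
    ‖((polyS N ε).map (Int.castRingHom ℂ)).eval z‖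
      = |‖∑ k ∈ range N, (ε k : ℂ) * z ^ k‖ ^ 2 - N| := by
  rw [eval_polyS, rev_eq N ε z hz]
  set w := ∑ k ∈ range N, (ε k : ℂ) * z ^ k with hw
  have h1 : w * (z ^ (N - 1) * (starRingEnd ℂ) w) - (N : ℂ) * z ^ (N - 1)
      = z ^ (N - 1) * (((‖w‖ ^ 2 - N : ℝ)) : ℂ) := by
    have h2 : w * (starRingEnd ℂ) w = ((‖w‖ ^ 2 : ℝ) : ℂ) := by
      rw [Complex.mul_conj, Complex.normSq_eq_norm_sq]
    push_cast
    rw [← Complex.ofReal_pow, ← h2]
    ring
  rw [h1, norm_mul, norm_pow, hz, one_pow, one_mul, Complex.norm_real, Real.norm_eq_abs]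

/-- Parseval for `P R - N X^(N-1)`: the mean over the unit circle of its squared modulus is at
least `N - 1`. -/
theorem sq_form_avg (N : ℕ) (ε : ℕ → ℤ) (hε : ∀ k, ε k = 1 ∨ ε k = -1) :
    (N : ℝ) - 1 ≤ Real.circleAverage
      (fun θ => ‖((polyS N ε).map (Int.castRingHom ℂ)).eval θ‖ ^ 2) 0 1 := by
  rcases Nat.eq_zero_or_pos N with h0 | hpos
  · subst h0
    have h : (0 : ℝ) ≤ Real.circleAverage
        (fun θ => ‖((polyS 0 ε).map (Int.castRingHom ℂ)).eval θ‖ ^ 2) 0 1 := by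
      rw [← Polynomial.sum_sq_norm_coeff_eq_circleAverage]
      exact Finset.sum_nonneg (fun _ _ => sq_nonneg _)
    simp only [Nat.cast_zero, zero_sub]
    linarith
  set Sc := (polyS N ε).map (Int.castRingHom ℂ) with hSc
  have hpar := Sc.sum_sq_norm_coeff_eq_circleAverage
  have hlow : (N : ℝ) - 1 ≤ ∑ i ∈ Sc.support, ‖Sc.coeff i‖ ^ 2 := by
    classical
    set T := (range N).erase ((N - 1) / 2) with hT
    have hcard : (N : ℝ) - 1 ≤ (T.card : ℝ) := by
      have h1 : (range N).card - 1 ≤ T.card := Finset.pred_card_le_card_erase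
      rw [Finset.card_range] at h1
      have h2 : (N : ℝ) - 1 = ((N - 1 : ℕ) : ℝ) := by
        rw [Nat.cast_sub hpos, Nat.cast_one]
      rw [h2]
      exact_mod_cast h1
    have hterm : ∀ k ∈ T, (1 : ℝ) ≤ ‖Sc.coeff (2 * k)‖ ^ 2 := by
      intro k hk
      obtain ⟨hne, hkN⟩ := Finset.mem_erase.1 hk
      have hkN' := mem_range.1 hkN
      have h2k : 2 * k ≠ N - 1 := by omega
      have hnz := coeff_polyS_ne_zero N ε hε k hkN' h2k
      have hco : Sc.coeff (2 * k) = (((polyS N ε).coeff (2 * k) : ℤ) : ℂ) := by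
        rw [hSc, Polynomial.coeff_map]
        simp
      rw [hco, Complex.norm_intCast]
      have h1 : (1 : ℝ) ≤ |(((polyS N ε).coeff (2 * k) : ℤ) : ℝ)| := by
        have := Int.one_le_abs hnz
        exact_mod_cast this
      nlinarith [abs_nonneg (((polyS N ε).coeff (2 * k) : ℤ) : ℝ)]
    have himg : T.image (fun k => 2 * k) ⊆ Sc.support ∪ range (2 * N) := by
      intro i hi
      obtain ⟨k, hk, rfl⟩ := Finset.mem_image.1 hi
      refine Finset.mem_union_right _ (mem_range.2 ?_)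
      have := mem_range.1 (Finset.mem_erase.1 hk).2
      omega
    calc (N : ℝ) - 1 ≤ T.card := hcard
      _ = ∑ k ∈ T, (1 : ℝ) := by simp
      _ ≤ ∑ k ∈ T, ‖Sc.coeff (2 * k)‖ ^ 2 := Finset.sum_le_sum hterm
      _ = ∑ i ∈ T.image (fun k => 2 * k), ‖Sc.coeff i‖ ^ 2 := by
          rw [Finset.sum_image]
          intro a _ b _ h
          have h' : 2 * a = 2 * b := h
          omega
      _ ≤ ∑ i ∈ Sc.support ∪ range (2 * N), ‖Sc.coeff i‖ ^ 2 :=
          Finset.sum_le_sum_of_subset_of_nonneg himg (fun _ _ _ => sq_nonneg _)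
      _ = ∑ i ∈ Sc.support, ‖Sc.coeff i‖ ^ 2 := by
          symm
          refine Finset.sum_subset Finset.subset_union_left (fun i _ hi => ?_)
          rw [Polynomial.notMem_support_iff.1 hi]
          simp
  rw [hpar] at hlow
  exact hlow

/-- **Squared form.**  If `| |P(z)|^2 - N | ≤ B` on the unit circle then `B^2 ≥ N - 1`. -/
theorem sq_form (N : ℕ) (ε : ℕ → ℤ) (hε : ∀ k, ε k = 1 ∨ ε k = -1) (B : ℝ)
    (hB : ∀ z : ℂ, ‖z‖ = 1 → |‖∑ k ∈ range N, (ε k : ℂ) * z ^ k‖ ^ 2 - N| ≤ B) :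
    (N : ℝ) - 1 ≤ B ^ 2 := by
  set Sc := (polyS N ε).map (Int.castRingHom ℂ) with hSc
  have hup : Real.circleAverage (fun θ => ‖Sc.eval θ‖ ^ 2) 0 1 ≤ B ^ 2 := by
    refine Real.circleAverage_mono_on_of_le_circle ?_ ?_
    · refine ContinuousOn.circleIntegrable' (Continuous.continuousOn ?_)
      exact (continuous_norm.comp Sc.continuous).pow 2
    · intro z hz
      have hz1 : ‖z‖ = 1 := by simpa using hz
      show ‖Sc.eval z‖ ^ 2 ≤ B ^ 2
      rw [hSc, norm_eval_polyS N ε z hz1]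
      exact pow_le_pow_left₀ (abs_nonneg _) (hB z hz1) 2
  exact (sq_form_avg N ε hε).trans hup

theorem coeff_polyP (N : ℕ) (ε : ℕ → ℤ) (i : ℕ) :
    (polyP N ε).coeff i = if i < N then ε i else 0 := by
  unfold polyP
  rw [Polynomial.finsetSum_coeff]
  simp only [Polynomial.coeff_C_mul, Polynomial.coeff_X_pow, mul_ite, mul_one, mul_zero]
  rw [Finset.sum_ite_eq]
  simp only [mem_range]

theorem eval_polyP (N : ℕ) (ε : ℕ → ℤ) (z : ℂ) :
    ((polyP N ε).map (Int.castRingHom ℂ)).eval z = ∑ k ∈ range N, (ε k : ℂ) * z ^ k := by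
  simp only [polyP, Polynomial.eval_map, Polynomial.eval₂_finsetSum, Polynomial.eval₂_mul,
    Polynomial.eval₂_C, Polynomial.eval₂_pow, Polynomial.eval₂_X]
  simp only [eq_intCast]

/-- Parseval for `P`: the mean of `|P|^2` over the unit circle is `N`. -/
theorem circleAverage_sq (N : ℕ) (ε : ℕ → ℤ) (hε : ∀ k, ε k = 1 ∨ ε k = -1) :
    Real.circleAverage (fun z => ‖∑ k ∈ range N, (ε k : ℂ) * z ^ k‖ ^ 2) 0 1 = N := by
  set Pc := (polyP N ε).map (Int.castRingHom ℂ) with hPc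
  have hpar := Pc.sum_sq_norm_coeff_eq_circleAverage
  have hfun : (fun z : ℂ => ‖∑ k ∈ range N, (ε k : ℂ) * z ^ k‖ ^ 2)
      = fun θ => ‖Pc.eval θ‖ ^ 2 := by
    funext z
    rw [hPc, eval_polyP]
  rw [hfun, ← hpar]
  have hco : ∀ i, Pc.coeff i = if i < N then (ε i : ℂ) else 0 := by
    intro i
    rw [hPc, Polynomial.coeff_map, coeff_polyP]
    split_ifs <;> simp
  have hsub : Pc.support ⊆ range N := by
    intro i hi
    by_contra hiN
    have hiN' : ¬ i < N := fun h => hiN (mem_range.2 h)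
    exact (Polynomial.mem_support_iff.1 hi) (by rw [hco, if_neg hiN'])
  rw [Finset.sum_subset hsub (fun i _ hi => by
    rw [Polynomial.notMem_support_iff.1 hi]; simp)]
  have h1 : ∀ i ∈ range N, ‖Pc.coeff i‖ ^ 2 = (1 : ℝ) := by
    intro i hi
    rw [hco, if_pos (mem_range.1 hi)]
    rcases hε i with h | h <;> rw [h] <;> simp
  rw [Finset.sum_congr rfl h1]
  simp

/-- **Product form.**  If `m ≤ |P(z)|^2 ≤ M` on the unit circle then the product of `M - N`
and `N - m` is at least `N - 1`. -/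
theorem prod_form (N : ℕ) (ε : ℕ → ℤ) (hε : ∀ k, ε k = 1 ∨ ε k = -1) (m M : ℝ)
    (hmM : ∀ z : ℂ, ‖z‖ = 1 →
      m ≤ ‖∑ k ∈ range N, (ε k : ℂ) * z ^ k‖ ^ 2 ∧
        ‖∑ k ∈ range N, (ε k : ℂ) * z ^ k‖ ^ 2 ≤ M) :
    (N : ℝ) - 1 ≤ (M - N) * (N - m) := by
  rcases Nat.eq_zero_or_pos N with h0 | hpos
  · subst h0
    have h := hmM 1 (by simp)
    simp only [range_zero, sum_empty, norm_zero, ne_eq, OfNat.ofNat_ne_zero, not_false_eq_true,
      zero_pow] at h
    simp only [Nat.cast_zero, zero_sub, sub_zero]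
    nlinarith [h.1, h.2]
  set Sc := (polyS N ε).map (Int.castRingHom ℂ) with hSc
  set F : ℂ → ℝ := fun z => ‖∑ k ∈ range N, (ε k : ℂ) * z ^ k‖ ^ 2 with hF
  have hFc : Continuous F := by
    rw [hF]
    refine (continuous_norm.comp ?_).pow 2
    exact continuous_finsetSum _ (fun k _ => continuous_const.mul (continuous_pow k))
  have hFi : CircleIntegrable F 0 1 :=
    ContinuousOn.circleIntegrable' hFc.continuousOn
  have hFavg : Real.circleAverage F 0 1 = N := circleAverage_sq N ε hε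
  -- lower bound: Parseval for `P R - N X^(N-1)`, from the squared form machinery
  have hlow : (N : ℝ) - 1 ≤ Real.circleAverage (fun θ => ‖Sc.eval θ‖ ^ 2) 0 1 := by
    exact sq_form_avg N ε hε
  -- upper bound: pointwise, the square of `F - N` is at most
  -- `A B + (A - B) (F - N)` with `A = M - N`, `B = N - m`
  have hup : Real.circleAverage (fun θ => ‖Sc.eval θ‖ ^ 2) 0 1
      ≤ Real.circleAverage (fun z => (M - N) * (N - m) + (M + m - 2 * N) * (F z - N)) 0 1 := by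
    refine Real.circleAverage_mono ?_ ?_ ?_
    · exact ContinuousOn.circleIntegrable'
        ((continuous_norm.comp Sc.continuous).pow 2).continuousOn
    · exact ContinuousOn.circleIntegrable'
        (continuous_const.add (continuous_const.mul (hFc.sub continuous_const))).continuousOn
    · intro z hz
      have hz1 : ‖z‖ = 1 := by simpa using hz
      have h := hmM z hz1
      show ‖Sc.eval z‖ ^ 2 ≤ (M - N) * (N - m) + (M + m - 2 * N) * (F z - N)
      rw [hSc, norm_eval_polyS N ε z hz1, sq_abs]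
      have h1 : m ≤ F z := h.1
      have h2 : F z ≤ M := h.2
      show (F z - N) ^ 2 ≤ _
      nlinarith [mul_nonneg (sub_nonneg.2 h1) (sub_nonneg.2 h2)]
  have hval : Real.circleAverage (fun z => (M - N) * (N - m) + (M + m - 2 * N) * (F z - N)) 0 1
      = (M - N) * (N - m) := by
    have h1 : CircleIntegrable (fun z : ℂ => F z - N) 0 1 :=
      ContinuousOn.circleIntegrable' (hFc.sub continuous_const).continuousOn
    have h2 : Real.circleAverage (fun z : ℂ => F z - N) 0 1 = 0 := by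
      rw [Real.circleAverage_fun_sub hFi
        (ContinuousOn.circleIntegrable' continuous_const.continuousOn),
        Real.circleAverage_const, hFavg, sub_self]
    have h3 : Real.circleAverage (fun z : ℂ => (M + m - 2 * N) * (F z - N)) 0 1 = 0 := by
      have := Real.circleAverage_fun_smul (a := (M + m - 2 * N)) (f := fun z : ℂ => F z - N)
        (c := 0) (R := 1)
      simp only [smul_eq_mul] at this
      rw [this, h2, mul_zero]
    have h4 := Real.circleAverage_fun_add (c := 0) (R := 1)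
      (f₁ := fun _ : ℂ => (M - N) * (N - m))
      (f₂ := fun z : ℂ => (M + m - 2 * N) * (F z - N))
      (ContinuousOn.circleIntegrable' continuous_const.continuousOn)
      (ContinuousOn.circleIntegrable'
        (continuous_const.mul (hFc.sub continuous_const)).continuousOn)
    rw [h4, Real.circleAverage_const, h3, add_zero]
  linarith

/-- **Relative form.**  If `| |P(z)|/√N - 1 | ≤ c` on the unit circle then
`c (2 + c) ≥ √(N-1)/N`. -/
theorem rel_form (N : ℕ) (ε : ℕ → ℤ) (hε : ∀ k, ε k = 1 ∨ ε k = -1) (c : ℝ)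
    (hc : ∀ z : ℂ, ‖z‖ = 1 →
      |‖∑ k ∈ range N, (ε k : ℂ) * z ^ k‖ / Real.sqrt N - 1| ≤ c) :
    Real.sqrt (N - 1) / N ≤ c * (2 + c) := by
  have hc0 : 0 ≤ c := (abs_nonneg _).trans (hc 1 (by simp))
  rcases Nat.eq_zero_or_pos N with h0 | hpos
  · subst h0
    simp only [Nat.cast_zero, div_zero]
    positivity
  have hN : (0 : ℝ) < N := by exact_mod_cast hpos
  have hsq : Real.sqrt N ^ 2 = N := Real.sq_sqrt hN.le
  have hsq0 : 0 < Real.sqrt N := Real.sqrt_pos.2 hN
  have hB : ∀ z : ℂ, ‖z‖ = 1 →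
      |‖∑ k ∈ range N, (ε k : ℂ) * z ^ k‖ ^ 2 - N| ≤ N * (c * (2 + c)) := by
    intro z hz
    set a := ‖∑ k ∈ range N, (ε k : ℂ) * z ^ k‖ with ha
    have ha0 : 0 ≤ a := norm_nonneg _
    set u := a / Real.sqrt N with hu
    have hu0 : 0 ≤ u := div_nonneg ha0 hsq0.le
    have h1 : |u - 1| ≤ c := hc z hz
    have h2 : a ^ 2 - N = N * ((u - 1) * (u + 1)) := by
      have : a = u * Real.sqrt N := by rw [hu]; field_simp
      rw [this, mul_pow, hsq]; ring
    rw [h2, abs_mul, abs_of_pos hN, abs_mul]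
    have h3 : |u + 1| ≤ 2 + c := by
      rw [abs_of_nonneg (by linarith)]
      have := (abs_le.1 h1).2
      linarith
    exact mul_le_mul_of_nonneg_left
      (mul_le_mul h1 h3 (abs_nonneg _) hc0) hN.le
  have hmain := sq_form N ε hε (N * (c * (2 + c))) hB
  have hnn : 0 ≤ (N : ℝ) * (c * (2 + c)) := by positivity
  have h4 : Real.sqrt (N - 1) ≤ N * (c * (2 + c)) := by
    rw [show (N : ℝ) * (c * (2 + c)) = Real.sqrt ((N * (c * (2 + c))) ^ 2) from
      (Real.sqrt_sq hnn).symm]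
    exact Real.sqrt_le_sqrt hmain
  rw [div_le_iff₀ hN]
  linarith

end Vale.Agent.H48.Littlewood
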